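import Mathlib.Combinatorics.SimpleGraph.Hamiltonian
import Mathlib.Combinatorics.SimpleGraph.Connectivity.Subgraph
import Mathlib.Data.Set.Card
import Mathlib.Tactic

/-! If every edge of a cubic graph is avoided by a Hamiltonian cycle, then any two edges with a
common end lie on a common Hamiltonian cycle. -/

namespace Vale.Agent.P039.H561

variable {V : Type*} [Fintype V] [DecidableEq V] {G : SimpleGraph V}

/-- A Hamiltonian cycle of `G` minus an edge is a Hamiltonian cycle of `G` avoiding the edge. -/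
theorem exists_avoid (hc : Fintype.card V ≠ 1) (u v : V)
    (h : (G.deleteEdges {s(u, v)}).IsHamiltonian) :
    ∃ (a : V) (p : G.Walk a a), p.IsHamiltonianCycle ∧ s(u, v) ∉ p.edges := by
  obtain ⟨a, p, hp⟩ := h hc
  refine ⟨a, p.map (SimpleGraph.Hom.ofLE (G.deleteEdges_le _)), hp.map Function.bijective_id, ?_⟩
  rw [SimpleGraph.Walk.edges_map]
  intro hmem
  rw [List.mem_map] at hmem
  obtain ⟨e, he, hee⟩ := hmem
  have h1 : e = s(u, v) := by
    rw [← hee]
    induction e using Sym2.ind with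
    | _ x y => rfl
  rw [h1] at he
  have h2 := p.edges_subset_edgeSet he
  rw [SimpleGraph.edgeSet_deleteEdges] at h2
  exact h2.2 rfl

omit [Fintype V] in
/-- At every vertex a Hamiltonian cycle uses exactly two edges. -/
theorem two_edges {a : V} {p : G.Walk a a} (hp : p.IsHamiltonianCycle) (x : V) :
    ({y | s(x, y) ∈ p.edges} : Set V).ncard = 2 := by
  have h := hp.isCycle.ncard_neighborSet_toSubgraph_eq_two (hp.mem_support x)
  rw [← h]
  congr 1
  ext y
  exact (SimpleGraph.Walk.adj_toSubgraph_iff_mem_edges (p := p)).symm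

/-- In a cubic graph a Hamiltonian cycle which avoids one edge at `x` uses the two others. -/
theorem uses {a : V} {p : G.Walk a a} (hp : p.IsHamiltonianCycle)
    (h3 : ∀ v, (G.neighborSet v).ncard = 3) {x u v w : V} (hu : G.Adj x u) (hv : G.Adj x v)
    (hw : G.Adj x w) (huv : u ≠ v) (huw : u ≠ w) (hvw : v ≠ w) (hav : s(x, w) ∉ p.edges) :
    s(x, u) ∈ p.edges ∧ s(x, v) ∈ p.edges := by
  have hN : G.neighborSet x = {u, v, w} := by
    symm
    refine Set.eq_of_subset_of_ncard_le ?_ ?_ (Set.toFinite _)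
    · rintro y (rfl | rfl | rfl)
      · exact hu
      · exact hv
      · exact hw
    · rw [h3 x, Set.ncard_insert_of_notMem (by simp [huv, huw]) (Set.toFinite _),
        Set.ncard_pair hvw]
  have hsub : ({y | s(x, y) ∈ p.edges} : Set V) ⊆ {u, v} := by
    intro y hy
    have hy' : s(x, y) ∈ p.edges := hy
    have h1 : y ∈ G.neighborSet x := p.adj_of_mem_edges hy'
    rw [hN] at h1
    rcases h1 with rfl | rfl | h1
    · simp
    · simp
    · have : y = w := h1
      subst this
      exact absurd hy' hav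
  have heq : ({y | s(x, y) ∈ p.edges} : Set V) = {u, v} := by
    refine Set.eq_of_subset_of_ncard_le hsub ?_ (Set.toFinite _)
    rw [two_edges hp x, Set.ncard_pair huv]
  constructor
  · have : u ∈ ({y | s(x, y) ∈ p.edges} : Set V) := by rw [heq]; simp
    exact this
  · have : v ∈ ({y | s(x, y) ∈ p.edges} : Set V) := by rw [heq]; simp
    exact this

/-- Any two edges at a vertex lie on a common Hamiltonian cycle, which avoids the third edge. -/
theorem pairs (hc : Fintype.card V ≠ 1) (h3 : ∀ v, (G.neighborSet v).ncard = 3)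
    (h : ∀ u v, G.Adj u v → (G.deleteEdges {s(u, v)}).IsHamiltonian)
    {x u v w : V} (hu : G.Adj x u) (hv : G.Adj x v) (hw : G.Adj x w)
    (huv : u ≠ v) (huw : u ≠ w) (hvw : v ≠ w) :
    ∃ (a : V) (p : G.Walk a a), p.IsHamiltonianCycle ∧ s(x, u) ∈ p.edges ∧ s(x, v) ∈ p.edges ∧
      s(x, w) ∉ p.edges := by
  obtain ⟨a, p, hp, hav⟩ := exists_avoid hc x w (h x w hw)
  obtain ⟨h1, h2⟩ := uses hp h3 hu hv hw huv huw hvw hav
  exact ⟨a, p, hp, h1, h2, hav⟩

/-- Any two edges with a common end lie on a common Hamiltonian cycle. -/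
theorem pair (hc : Fintype.card V ≠ 1) (h3 : ∀ v, (G.neighborSet v).ncard = 3)
    (h : ∀ u v, G.Adj u v → (G.deleteEdges {s(u, v)}).IsHamiltonian)
    {x u v : V} (hu : G.Adj x u) (hv : G.Adj x v) (huv : u ≠ v) :
    ∃ (a : V) (p : G.Walk a a), p.IsHamiltonianCycle ∧ s(x, u) ∈ p.edges ∧
      s(x, v) ∈ p.edges := by
  have hex : ∃ w, G.Adj x w ∧ u ≠ w ∧ v ≠ w := by
    by_contra hcon
    push Not at hcon
    have hsub : G.neighborSet x ⊆ {u, v} := by
      intro w hw
      by_cases h1 : u = w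
      · left; exact h1.symm
      · right; exact (hcon w hw h1).symm
    have := Set.ncard_le_ncard hsub (Set.toFinite _)
    rw [h3 x, Set.ncard_pair huv] at this
    omega
  obtain ⟨w, hw, huw, hvw⟩ := hex
  obtain ⟨a, p, hp, h1, h2, _⟩ := pairs hc h3 h hu hv hw huv huw hvw
  exact ⟨a, p, hp, h1, h2⟩

/-- There are at least three Hamiltonian cycles. -/
theorem three (hc : Fintype.card V ≠ 1) [Nonempty V] (h3 : ∀ v, (G.neighborSet v).ncard = 3)
    (h : ∀ u v, G.Adj u v → (G.deleteEdges {s(u, v)}).IsHamiltonian) :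
    3 ≤ {E : Set (Sym2 V) | ∃ (a : V) (p : G.Walk a a), p.IsHamiltonianCycle ∧
      E = {e | e ∈ p.edges}}.ncard := by
  obtain ⟨x⟩ := ‹Nonempty V›
  have hx := h3 x
  rw [Set.ncard_eq_three] at hx
  obtain ⟨u, v, w, huv, huw, hvw, hN⟩ := hx
  have hu : G.Adj x u := by
    have : u ∈ G.neighborSet x := by rw [hN]; simp
    exact this
  have hv : G.Adj x v := by
    have : v ∈ G.neighborSet x := by rw [hN]; simp
    exact this
  have hw : G.Adj x w := by
    have : w ∈ G.neighborSet x := by rw [hN]; simp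
    exact this
  obtain ⟨a1, p1, hp1, h11, h12, h13⟩ := pairs hc h3 h hu hv hw huv huw hvw
  obtain ⟨a2, p2, hp2, h21, h22, h23⟩ := pairs hc h3 h hu hw hv huw huv hvw.symm
  obtain ⟨a3, p3, hp3, h31, h32, h33⟩ := pairs hc h3 h hv hw hu hvw huv.symm huw.symm
  have hsub : ({({e | e ∈ p1.edges} : Set (Sym2 V)), {e | e ∈ p2.edges}, {e | e ∈ p3.edges}} :
      Set (Set (Sym2 V))) ⊆ {E : Set (Sym2 V) | ∃ (a : V) (p : G.Walk a a),
        p.IsHamiltonianCycle ∧ E = {e | e ∈ p.edges}} := by
    rintro E (rfl | rfl | rfl)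
    · exact ⟨a1, p1, hp1, rfl⟩
    · exact ⟨a2, p2, hp2, rfl⟩
    · exact ⟨a3, p3, hp3, rfl⟩
  have n12 : ({e | e ∈ p1.edges} : Set (Sym2 V)) ≠ {e | e ∈ p2.edges} := by
    intro heq
    have : s(x, w) ∈ ({e | e ∈ p1.edges} : Set (Sym2 V)) := by rw [heq]; exact h22
    exact h13 this
  have n13 : ({e | e ∈ p1.edges} : Set (Sym2 V)) ≠ {e | e ∈ p3.edges} := by
    intro heq
    have : s(x, w) ∈ ({e | e ∈ p1.edges} : Set (Sym2 V)) := by rw [heq]; exact h32
    exact h13 this
  have n23 : ({e | e ∈ p2.edges} : Set (Sym2 V)) ≠ {e | e ∈ p3.edges} := by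
    intro heq
    have : s(x, v) ∈ ({e | e ∈ p2.edges} : Set (Sym2 V)) := by rw [heq]; exact h31
    exact h23 this
  have hcard : ({({e | e ∈ p1.edges} : Set (Sym2 V)), {e | e ∈ p2.edges}, {e | e ∈ p3.edges}} :
      Set (Set (Sym2 V))).ncard = 3 := by
    rw [Set.ncard_eq_three]
    exact ⟨_, _, _, n12, n13, n23, rfl⟩
  rw [← hcard]
  exact Set.ncard_le_ncard hsub (Set.toFinite _)

end Vale.Agent.P039.H561
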